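import Mathlib
import Vale.Agent.Lib.P248.helper1.ConeAux

/-!
# P248 (helper81, pool job P248-CQC2): the volume of the slab model

The slab model `polarModel D ζ τ` of the polar of a cone is closed, hence measurable, and its
volume is at least `|polarAt D ζ| / ((n+1) τ (1-τ)^(n+1))`: its section at height `s`
contains `(1 + τ s) • polarAt D ζ` for `-1/τ < s < 1/(1-τ)`.
-/

namespace Vale.Agent.Lib.P248.H81

open MeasureTheory Set
open scoped ENNReal Pointwise
open Vale.Agent.Lib.P227 Vale.Agent.Lib.P248.H1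

theorem isClosed_polarModel {n : ℕ} (D : Set (EuclideanSpace ℝ (Fin n)))
    (ζ : EuclideanSpace ℝ (Fin n)) (τ : ℝ) : IsClosed (polarModel D ζ τ) := by
  have h0 : Continuous fun y : EuclideanSpace ℝ (Fin (n + 1)) => y 0 :=
    (continuous_apply (0 : Fin (n + 1))).comp (PiLp.continuous_ofLp 2 _)
  have e : polarModel D ζ τ = {y | -1 / τ ≤ y 0} ∩ ({y | y 0 ≤ 1 / (1 - τ)} ∩
      ⋂ d ∈ D, {y | inner ℝ (d - ζ) (etail y) ≤ 1 + τ * y 0}) := by
    ext y
    constructor
    · rintro ⟨h1, h2, h3⟩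
      exact ⟨h1, h2, mem_iInter₂.2 h3⟩
    · rintro ⟨h1, h2, h3⟩
      have h3' := mem_iInter₂.1 h3
      exact ⟨h1, h2, fun d hd => h3' d hd⟩
  rw [e]
  refine (isClosed_le continuous_const h0).inter ((isClosed_le h0 continuous_const).inter ?_)
  refine isClosed_biInter fun d _ => ?_
  exact isClosed_le (continuous_const.inner continuous_etail)
    (continuous_const.add (continuous_const.mul h0))

theorem measurableSet_polarModel {n : ℕ} (D : Set (EuclideanSpace ℝ (Fin n)))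
    (ζ : EuclideanSpace ℝ (Fin n)) (τ : ℝ) : MeasurableSet (polarModel D ζ τ) :=
  (isClosed_polarModel D ζ τ).measurableSet

/-- The section of the slab model at height `s` contains a dilate of the polar of the base. -/
theorem smul_polarAt_subset_sec {n : ℕ} (D : Set (EuclideanSpace ℝ (Fin n)))
    (ζ : EuclideanSpace ℝ (Fin n)) (τ s : ℝ) (hs1 : -1 / τ ≤ s) (hs2 : s ≤ 1 / (1 - τ))
    (hpos : 0 ≤ 1 + τ * s) :
    (1 + τ * s) • polarAt D ζ ⊆ sec s (polarModel D ζ τ) := by
  rintro w ⟨η, hη, rfl⟩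
  show ecomb s ((1 + τ * s) • η) ∈ polarModel D ζ τ
  refine ⟨?_, ?_, fun d hd => ?_⟩
  · rw [ecomb_zero]; exact hs1
  · rw [ecomb_zero]; exact hs2
  · rw [ecomb_zero, etail_ecomb, inner_smul_right]
    have h1 : inner ℝ (d - ζ) η ≤ 1 := hη d hd
    nlinarith

/-- The one-dimensional integral behind the volume of the slab model. -/
theorem integral_slab (n : ℕ) (τ : ℝ) (hτ0 : 0 < τ) (hτ1 : τ < 1) :
    ∫ s in (-1 / τ)..(1 / (1 - τ)), (1 + τ * s) ^ n =
      1 / ((n + 1) * τ * (1 - τ) ^ (n + 1)) := by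
  have h1τ : (0 : ℝ) < 1 - τ := by linarith
  have hτne : τ ≠ 0 := hτ0.ne'
  have h1τne : 1 - τ ≠ 0 := h1τ.ne'
  have hn : ((n : ℝ) + 1) ≠ 0 := by positivity
  rw [intervalIntegral.integral_comp_add_mul (fun x : ℝ => x ^ n) hτne 1, integral_pow]
  have ea : 1 + τ * (-1 / τ) = 0 := by field_simp; ring
  have eb : 1 + τ * (1 / (1 - τ)) = 1 / (1 - τ) := by field_simp; ring
  rw [ea, eb, zero_pow (Nat.succ_ne_zero n), sub_zero, smul_eq_mul, one_div, inv_pow]
  field_simp

theorem lintegral_slab (n : ℕ) (τ : ℝ) (hτ0 : 0 < τ) (hτ1 : τ < 1) :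
    ∫⁻ s in Ioo (-1 / τ) (1 / (1 - τ)), ENNReal.ofReal ((1 + τ * s) ^ n) =
      ENNReal.ofReal (1 / ((n + 1) * τ * (1 - τ) ^ (n + 1))) := by
  have h1τ : (0 : ℝ) < 1 - τ := by linarith
  have hab : -1 / τ ≤ 1 / (1 - τ) := by
    have h1 : -1 / τ < 0 := by
      rw [neg_div]
      exact neg_neg_of_pos (by positivity)
    have h2 : 0 < 1 / (1 - τ) := by positivity
    linarith
  have hcont : Continuous fun s : ℝ => (1 + τ * s) ^ n := by fun_prop
  have hint : IntegrableOn (fun s : ℝ => (1 + τ * s) ^ n) (Ioo (-1 / τ) (1 / (1 - τ))) :=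
    (hcont.integrableOn_Icc).mono_set Ioo_subset_Icc_self
  have hnn : 0 ≤ᵐ[volume.restrict (Ioo (-1 / τ) (1 / (1 - τ)))]
      fun s : ℝ => (1 + τ * s) ^ n := by
    refine (ae_restrict_iff' measurableSet_Ioo).2 (Filter.Eventually.of_forall fun s hs => ?_)
    have h1 : -1 / τ < s := hs.1
    have h2 : 0 ≤ 1 + τ * s := by
      rw [div_lt_iff₀ hτ0] at h1
      nlinarith
    exact pow_nonneg h2 n
  rw [← ofReal_integral_eq_lintegral_ofReal hint hnn, ← integral_Ioc_eq_integral_Ioo,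
    ← intervalIntegral.integral_of_le hab, integral_slab n τ hτ0 hτ1]

theorem vol_polarModel_ge {n : ℕ} (D : Set (EuclideanSpace ℝ (Fin n)))
    (ζ : EuclideanSpace ℝ (Fin n)) (τ : ℝ) (hτ0 : 0 < τ) (hτ1 : τ < 1) :
    ENNReal.ofReal (1 / ((n + 1) * τ * (1 - τ) ^ (n + 1))) * volume (polarAt D ζ) ≤
      volume (polarModel D ζ τ) := by
  have hmeas : Measurable fun s : ℝ => ENNReal.ofReal ((1 + τ * s) ^ n) := by fun_prop
  calc ENNReal.ofReal (1 / ((n + 1) * τ * (1 - τ) ^ (n + 1))) * volume (polarAt D ζ)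
      = (∫⁻ s in Ioo (-1 / τ) (1 / (1 - τ)), ENNReal.ofReal ((1 + τ * s) ^ n)) *
          volume (polarAt D ζ) := by rw [lintegral_slab n τ hτ0 hτ1]
    _ = ∫⁻ s in Ioo (-1 / τ) (1 / (1 - τ)),
          ENNReal.ofReal ((1 + τ * s) ^ n) * volume (polarAt D ζ) :=
        (lintegral_mul_const _ hmeas).symm
    _ ≤ ∫⁻ s in Ioo (-1 / τ) (1 / (1 - τ)), volume (sec s (polarModel D ζ τ)) := by
        refine setLIntegral_mono' measurableSet_Ioo fun s hs => ?_
        have h1 : -1 / τ < s := hs.1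
        have hpos : 0 ≤ 1 + τ * s := by
          rw [div_lt_iff₀ hτ0] at h1
          nlinarith
        have hsub := smul_polarAt_subset_sec D ζ τ s hs.1.le hs.2.le hpos
        have hvol : volume ((1 + τ * s) • polarAt D ζ) =
            ENNReal.ofReal ((1 + τ * s) ^ n) * volume (polarAt D ζ) := by
          rw [Measure.addHaar_smul, finrank_euclideanSpace_fin, abs_of_nonneg (pow_nonneg hpos n)]
        rw [← hvol]
        exact measure_mono hsub
    _ ≤ ∫⁻ s, volume (sec s (polarModel D ζ τ)) := setLIntegral_le_lintegral _ _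
    _ = volume (polarModel D ζ τ) :=
        (volume_eq_lintegral_sec (measurableSet_polarModel D ζ τ)).symm

end Vale.Agent.Lib.P248.H81
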